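import Vale.Agent.P245N.QVar.Step
import Vale.Agent.P245N.Spec

/-!
Variance of a quadratic form under an isotropic log-concave measure.
-/

open MeasureTheory Real Filter Set
open scoped Topology RealInnerProductSpace

namespace Vale.Agent.P245N.QVar

open Vale.Agent.P245

variable {n : ℕ}

lemma frob_adjoint (M : Op n) : frob (ContinuousLinearMap.adjoint M) = frob M := by
  simp only [frob, norm_sq_eq_sum (stdb n)]
  rw [Finset.sum_comm]
  refine Finset.sum_congr rfl fun a _ => Finset.sum_congr rfl fun b _ => ?_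
  rw [ContinuousLinearMap.adjoint_inner_right, real_inner_comm]

lemma frob_add_adjoint_le (M : Op n) : frob (M + ContinuousLinearMap.adjoint M) ≤ 4 * frob M := by
  have h : ∀ a, ‖(M + ContinuousLinearMap.adjoint M) (stdb n a)‖ ^ 2
      ≤ 2 * ‖M (stdb n a)‖ ^ 2 + 2 * ‖ContinuousLinearMap.adjoint M (stdb n a)‖ ^ 2 := fun a => by
    rw [add_apply]
    have h1 := norm_add_le (M (stdb n a)) (ContinuousLinearMap.adjoint M (stdb n a))
    nlinarith [norm_nonneg (M (stdb n a) + ContinuousLinearMap.adjoint M (stdb n a)),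
      sq_nonneg (‖M (stdb n a)‖ - ‖ContinuousLinearMap.adjoint M (stdb n a)‖)]
  refine (Finset.sum_le_sum fun a _ => h a).trans (le_of_eq ?_)
  rw [Finset.sum_add_distrib, ← Finset.mul_sum, ← Finset.mul_sum]
  have := frob_adjoint M
  simp only [frob] at this ⊢
  rw [this]; ring

lemma sym_add_adjoint (M : Op n) : SymOp (M + ContinuousLinearMap.adjoint M) := fun u v => by
  simp only [add_apply, inner_add_left, inner_add_right, ContinuousLinearMap.adjoint_inner_left,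
    ContinuousLinearMap.adjoint_inner_right]
  ring

lemma d1_quad (M : Op n) : D1 (fun x => ⟪x, M x⟫) (fun x => (M + ContinuousLinearMap.adjoint M) x) := by
  refine ⟨fun x => ?_, (M + ContinuousLinearMap.adjoint M).continuous⟩
  refine ((hasFDerivAt_id x).inner ℝ M.hasFDerivAt).congr_fderiv (ContinuousLinearMap.ext fun v => ?_)
  simp only [ContinuousLinearMap.comp_apply, ContinuousLinearMap.prod_apply, id_eq, fderivInnerCLM_apply,
    ContinuousLinearMap.id_apply, innerSL_apply_apply, add_apply, inner_add_left,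
    ContinuousLinearMap.adjoint_inner_left]
  rw [real_inner_comm (M x) v]
  ring

section

variable {ν : Measure (Euc n)} [IsProbabilityMeasure ν] {R : ℝ}

lemma integral_norm_apply_sq (hS : Supp ν R) (hiso : ∀ v, ∫ x, ⟪v, x⟫ ^ 2 ∂ν = ‖v‖ ^ 2) {S : Op n} (hs : SymOp S) :
    ∫ x, ‖S x‖ ^ 2 ∂ν = frob S := by
  have e : ∀ x, ‖S x‖ ^ 2 = ∑ a, ⟪S (stdb n a), x⟫ ^ 2 := fun x => by
    rw [norm_sq_eq_sum (stdb n)]
    exact Finset.sum_congr rfl fun a _ => by rw [hs]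
  simp only [e]
  rw [integral_finsetSum _ fun a _ => hS.integrable (by fun_prop)]
  exact Finset.sum_congr rfl fun a _ => hiso _

lemma integral_norm_four_le (hS : Supp ν R) (hν : IsLC 0 ν) (hiso : ∀ v, ∫ x, ⟪v, x⟫ ^ 2 ∂ν = ‖v‖ ^ 2) :
    ∫ x, ‖x‖ ^ 4 ∂ν ≤ 22500 * (n : ℝ) ^ 2 := by
  have e : ∀ x : Euc n, ‖x‖ ^ 4 ≤ (n : ℝ) * ∑ a, ⟪stdb n a, x⟫ ^ 4 := fun x => by
    have h := sq_sum_le_card_mul_sum_sq (s := (Finset.univ : Finset (Fin n))) (f := fun a => ⟪stdb n a, x⟫ ^ 2)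
    simp only [Finset.card_univ, Fintype.card_fin, ← pow_mul, Nat.reduceMul] at h
    rw [← norm_sq_eq_sum (stdb n), ← pow_mul] at h
    exact h
  refine (integral_mono (hS.integrable (by fun_prop)) ((hS.integrable (by fun_prop)).const_mul _) e).trans ?_
  rw [integral_const_mul, integral_finsetSum _ fun a _ => hS.integrable (by fun_prop)]
  have h4 : ∀ a, ∫ x, ⟪stdb n a, x⟫ ^ 4 ∂ν ≤ 22500 := fun a => by
    have h := fourth_moment hν hS (stdb n a) 0
    simp only [sub_zero, hiso, (stdb n).norm_eq_one, one_pow, mul_one] at h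
    exact h
  refine (mul_le_mul_of_nonneg_left (Finset.sum_le_sum fun a _ => h4 a) (Nat.cast_nonneg n)).trans (le_of_eq ?_)
  simp; ring

lemma integral_norm_apply_four_le (hS : Supp ν R) (hν : IsLC 0 ν) (hiso : ∀ v, ∫ x, ⟪v, x⟫ ^ 2 ∂ν = ‖v‖ ^ 2)
    {S : Op n} (hs : SymOp S) : ∫ x, (‖S x‖ ^ 2) ^ 2 ∂ν ≤ 22500 * (n : ℝ) ^ 2 * frob S ^ 2 := by
  have h1 : ∀ x, ‖S x‖ ^ 2 ≤ frob S * ‖x‖ ^ 2 := fun x => by
    rw [norm_sq_eq_sum (stdb n) (S x), frob, Finset.sum_mul]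
    refine Finset.sum_le_sum fun a _ => ?_
    rw [← hs, ← sq_abs, ← mul_pow]
    exact pow_le_pow_left₀ (abs_nonneg _) (abs_real_inner_le_norm _ _) 2
  have h2 : ∀ x, (‖S x‖ ^ 2) ^ 2 ≤ frob S ^ 2 * ‖x‖ ^ 4 := fun x => by
    refine (pow_le_pow_left₀ (sq_nonneg _) (h1 x) 2).trans (le_of_eq ?_)
    ring
  refine (integral_mono (hS.integrable (by fun_prop)) ((hS.integrable (by fun_prop)).const_mul _) h2).trans ?_
  rw [integral_const_mul]
  exact (mul_le_mul_of_nonneg_left (integral_norm_four_le hS hν hiso) (sq_nonneg _)).trans (le_of_eq (by ring))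

lemma continuous_big (hS : Supp ν R) (C τ : ℝ) : Continuous fun θ => big C (Aop τ ν θ) := by
  have := continuous_Aop (t := τ) hS
  unfold big; fun_prop

lemma big_nonneg (C : ℝ) (A : Op n) : 0 ≤ big C A := le_max_left _ _

lemma big_le_one (C : ℝ) (A : Op n) : big C A ≤ 1 := max_le zero_le_one (min_le_left _ _)

lemma big_eq_one {C : ℝ} {A : Op n} (h : C + 1 ≤ ‖A‖) : big C A = 1 := by
  rw [big, min_eq_left (by linarith), max_eq_right zero_le_one]

lemma abs_big_le (C : ℝ) (A : Op n) : |big C A| ≤ 1 := by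
  rw [abs_of_nonneg (big_nonneg C A)]; exact big_le_one C A

omit [IsProbabilityMeasure ν] in
lemma av_nonneg {τ : ℝ} {g : Euc n → ℝ} (hg : ∀ x, 0 ≤ g x) (θ : Euc n) : 0 ≤ av τ ν g θ :=
  integral_nonneg hg

lemma elaw_av (hS : Supp ν R) (hR : 0 ≤ R) {τ : ℝ} (hτ : 0 ≤ τ) {g : Euc n → ℝ} (hg : Continuous g) :
    elaw τ ν (av τ ν g) = ∫ x, g x ∂ν := by
  rw [← integral_qop (s := √τ) hS hR hg]
  simp only [elaw, qop, Real.sq_sqrt hτ]

lemma av_sq_le (hS : Supp ν R) {τ : ℝ} {g : Euc n → ℝ} (hg : Continuous g) (θ : Euc n) :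
    av τ ν g θ ^ 2 ≤ av τ ν (fun x => g x ^ 2) θ := by
  have := isProb_fib (T := τ) hS θ
  have h := var_eq (supp_fib (T := τ) hS θ) hg
  have h0 : 0 ≤ ∫ x, (g x - ∫ y, g y ∂(fib τ ν θ)) ^ 2 ∂(fib τ ν θ) := integral_nonneg fun x => sq_nonneg _
  simp only [av]
  linarith

/-- Contribution of the bad event. -/
lemma bad_le (hS : Supp ν R) (hR : 0 ≤ R) {C τ e F : ℝ} (hτ : 0 ≤ τ) (he : 0 < e) (hF : 0 ≤ F)
    (hE : elaw τ ν (fun θ => big C (Aop τ ν θ)) ≤ e ^ 2) {g : Euc n → ℝ} (hg : Continuous g) (hg0 : ∀ x, 0 ≤ g x)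
    (hg1 : ∫ x, g x ∂ν = F) (hg2 : ∫ x, g x ^ 2 ∂ν ≤ 22500 * (n : ℝ) ^ 2 * F ^ 2) :
    elaw τ ν (fun θ => big C (Aop τ ν θ) * av τ ν g θ) ≤ 150 * ((n : ℝ) + 1) * F * e := by
  obtain ⟨B, hB0, hB'⟩ := exists_bound hR hg
  have hB : ∀ x, ‖x‖ ≤ R → |g x| ≤ B := fun x hx => by simpa [norm_eq_abs] using hB' x hx
  have hB2 : ∀ x, ‖x‖ ≤ R → |g x ^ 2| ≤ B ^ 2 := fun x hx => by
    rw [abs_pow]; exact pow_le_pow_left₀ (abs_nonneg _) (hB x hx) 2
  have hbc := continuous_big hS C τ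
  have hac := continuous_av (T := τ) hS hg
  have ha2 := continuous_av (T := τ) hS (g := fun x => g x ^ 2) (hg.pow 2)
  have hbb : ∀ θ, |big C (Aop τ ν θ) * av τ ν g θ| ≤ 1 * B := fun θ => by
    rw [abs_mul]; exact mul_le_mul (abs_big_le _ _) (abs_av_le hS hB θ) (abs_nonneg _) zero_le_one
  rcases hF.eq_or_lt with h0 | hF0
  · have h1 := elaw_mono (t := τ) hS (hbc.mul hac) hac hbb (abs_av_le hS hB) fun θ =>
      mul_le_of_le_one_left (av_nonneg hg0 θ) (big_le_one _ _)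
    rw [elaw_av hS hR hτ hg, hg1] at h1
    rw [← h0]
    simp only [mul_zero, zero_mul]
    exact h1.trans h0.ge
  set δ := e / (150 * ((n : ℝ) + 1) * F) with hδ
  have hδ0 : 0 < δ := by positivity
  have hpt : ∀ θ, big C (Aop τ ν θ) * av τ ν g θ
      ≤ δ / 2 * av τ ν (fun x => g x ^ 2) θ + (1 / (2 * δ) * big C (Aop τ ν θ) + 0) := fun θ => by
    set b := big C (Aop τ ν θ)
    set u := av τ ν g θ
    have h1 : b ^ 2 ≤ b := by rw [sq]; exact mul_le_of_le_one_left (big_nonneg _ _) (big_le_one _ _)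
    have h2 := mul_le_mul_of_nonneg_left (av_sq_le (τ := τ) hS hg θ) (by positivity : 0 ≤ δ / 2)
    have h3 := mul_le_mul_of_nonneg_left h1 (by positivity : 0 ≤ 1 / (2 * δ))
    have h4 : b * u ≤ δ / 2 * u ^ 2 + 1 / (2 * δ) * b ^ 2 := by
      have h5 : 0 ≤ 1 / (2 * δ) * (δ * u - b) ^ 2 := by positivity
      have h6 : 1 / (2 * δ) * (δ * u - b) ^ 2 = δ / 2 * u ^ 2 + 1 / (2 * δ) * b ^ 2 - b * u := by
        field_simp; ring
      linarith
    linarith
  have h := elaw_le_lin (t := τ) (h := fun θ => big C (Aop τ ν θ) * av τ ν g θ) hS (hbc.mul hac) ha2 hbc hbb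
    (abs_av_le hS hB2) (fun θ => abs_big_le C _) (δ / 2) (1 / (2 * δ)) 0 hpt
  rw [elaw_av hS hR hτ (g := fun x => g x ^ 2) (hg.pow 2)] at h
  refine h.trans ?_
  have h1 := mul_le_mul_of_nonneg_left hg2 (by positivity : 0 ≤ δ / 2)
  have h2 := mul_le_mul_of_nonneg_left hE (by positivity : 0 ≤ 1 / (2 * δ))
  have e1 : δ / 2 * (22500 * (n : ℝ) ^ 2 * F ^ 2) ≤ 75 * ((n : ℝ) + 1) * F * e := by
    have e0 : δ / 2 * (22500 * ((n : ℝ) + 1) ^ 2 * F ^ 2) = 75 * ((n : ℝ) + 1) * F * e := by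
      rw [hδ]; field_simp; ring
    rw [← e0]
    gcongr
    linarith
  have e2 : 1 / (2 * δ) * e ^ 2 = 75 * ((n : ℝ) + 1) * F * e := by rw [hδ]; field_simp; ring
  linarith

end

lemma exp_tail_le {c x x₀ : ℝ} (hc : 0 < c) (hx₀ : 0 ≤ x₀) (hx : x₀ ≤ x) :
    x * exp (-(c * x / 2)) ≤ 4 / c * exp (-(c * x₀ / 4)) ∧
    x ^ 2 * exp (-(c * x / 2)) ≤ 32 / c ^ 2 * exp (-(c * x₀ / 4)) := by
  have e : exp (-(c * x / 2)) = exp (-(c * x / 4)) * exp (-(c * x / 4)) := by rw [← exp_add]; ring_nf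
  have hm : exp (-(c * x / 4)) ≤ exp (-(c * x₀ / 4)) := exp_le_exp.2 (by nlinarith)
  have hx0 : 0 ≤ x := hx₀.trans hx
  have he : exp (c * x / 4) * exp (-(c * x / 4)) = 1 := by rw [← exp_add]; simp
  have hE := (exp_pos (-(c * x / 4))).le
  have h1 : x * exp (-(c * x / 4)) ≤ 4 / c := by
    have h := mul_le_mul_of_nonneg_right (show x ≤ 4 / c * exp (c * x / 4) by
      rw [div_mul_eq_mul_div, le_div_iff₀ hc]
      nlinarith [add_one_le_exp (c * x / 4)]) hE
    rwa [mul_assoc (4 / c), he, mul_one] at h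
  have h2 : x ^ 2 * exp (-(c * x / 4)) ≤ 32 / c ^ 2 := by
    have h := mul_le_mul_of_nonneg_right (show x ^ 2 ≤ 32 / c ^ 2 * exp (c * x / 4) by
      rw [div_mul_eq_mul_div, le_div_iff₀ (by positivity)]
      nlinarith [quadratic_le_exp_of_nonneg (by positivity : 0 ≤ c * x / 4), mul_nonneg hc.le hx0]) hE
    rwa [mul_assoc (32 / c ^ 2), he, mul_one] at h
  constructor
  · calc x * exp (-(c * x / 2)) = (x * exp (-(c * x / 4))) * exp (-(c * x / 4)) := by rw [e]; ring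
      _ ≤ _ := mul_le_mul h1 hm hE (by positivity)
  · calc x ^ 2 * exp (-(c * x / 2)) = (x ^ 2 * exp (-(c * x / 4))) * exp (-(c * x / 4)) := by rw [e]; ring
      _ ≤ _ := mul_le_mul h2 hm hE (by positivity)

/-- Variance of a quadratic form under an isotropic log-concave measure. -/
lemma iso_var (hL : LichnStmt) (hT : TailStmt) : ∃ K : ℝ, 0 < K ∧
    ∀ (n : ℕ) (ν : Measure (Euc n)), IsProbabilityMeasure ν → ∀ R : ℝ, 0 ≤ R → Supp ν R → IsLC 0 ν →
      (∀ v, ∫ x, ⟪v, x⟫ ^ 2 ∂ν = ‖v‖ ^ 2) → bary 0 ν 0 = 0 → ∀ M : Op n,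
      ∫ x, (⟪x, M x⟫ - ∫ y, ⟪y, M y⟫ ∂ν) ^ 2 ∂ν ≤ K * log ((n : ℝ) + 2) * frob M := by
  obtain ⟨C, c, hC, hc, -, hT⟩ := hT
  set c' := min (min c (c * log 2 / 4)) (log 2 ^ 2 / (2 * (C + 1))) with hc'
  have hl2 : 0 < log (2 : ℝ) := log_pos one_lt_two
  have hc'0 : 0 < c' := lt_min (lt_min hc (by positivity)) (by positivity)
  refine ⟨8 * (4 * √((C + 1) / c') + (600 / c + 4800 / c ^ 2) / log 2), by positivity,
    fun n ν hν0 R hR hS hν hiso hb M => ?_⟩
  set L := log ((n : ℝ) + 2) with hLdef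
  have hn2 : (2 : ℝ) ≤ (n : ℝ) + 2 := by linarith [(Nat.cast_nonneg n : (0 : ℝ) ≤ n)]
  have hL2 : log 2 ≤ L := log_le_log two_pos hn2
  have hL0 : 0 < L := hl2.trans_le hL2
  set T := c' / L ^ 2 with hTdef
  have hT0 : 0 < T := by positivity
  have hTc : T ≤ c / L ^ 2 := div_le_div_of_nonneg_right ((min_le_left _ _).trans (min_le_left _ _)) (by positivity)
  have hTC : T * (C + 1) ≤ 1 / 2 := by
    have h1 : T ≤ c' / log 2 ^ 2 := div_le_div_of_nonneg_left hc'0.le (by positivity) (pow_le_pow_left₀ hl2.le hL2 2)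
    have h2 : c' ≤ log 2 ^ 2 / (2 * (C + 1)) := min_le_right _ _
    rw [le_div_iff₀ (by positivity)] at h1 h2
    have h3 : T * (C + 1) * (2 * log 2 ^ 2) ≤ log 2 ^ 2 := by nlinarith
    nlinarith [pow_pos hl2 2]
  have hT1 : T ≤ 1 / 2 := by nlinarith
  have hexp : ((n : ℝ) + 1) * exp (-(c * (1 / T) / 4)) ≤ 1 := by
    have h1 : L ≤ c * (1 / T) / 4 := by
      rw [hTdef, one_div_div, le_div_iff₀ (by norm_num : (0 : ℝ) < 4), mul_div_assoc', le_div_iff₀ hc'0]
      have h2 : 4 * c' ≤ c * log 2 := by linarith [(min_le_left _ _).trans (min_le_right _ _) |> (show c' ≤ c * log 2 / 4 → _ from id)]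
      nlinarith [mul_le_mul_of_nonneg_left hL2 hc.le]
    have h3 := exp_le_exp.2 (neg_le_neg h1)
    rw [exp_neg L, hLdef, exp_log (by linarith)] at h3
    refine (mul_le_mul_of_nonneg_left h3 (by positivity)).trans ?_
    rw [← div_eq_mul_inv, div_le_one (by linarith)]
    linarith
  set q := fun x : Euc n => ⟪x, M x⟫ with hq
  set S := M + ContinuousLinearMap.adjoint M with hSdef
  have hqd : D1 q fun x => S x := d1_quad M
  have hqc : Continuous q := hqd.cont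
  set g := fun x : Euc n => ‖S x‖ ^ 2 with hg
  have hgc : Continuous g := by fun_prop
  have hg0 : ∀ x, 0 ≤ g x := fun x => sq_nonneg _
  set F := frob S with hF
  have hF0 : 0 ≤ F := frob_nonneg _
  have hg1 : ∫ x, g x ∂ν = F := integral_norm_apply_sq hS hiso (sym_add_adjoint M)
  have hg2 : ∫ x, g x ^ 2 ∂ν ≤ 22500 * (n : ℝ) ^ 2 * F ^ 2 := integral_norm_apply_four_le hS hν hiso (sym_add_adjoint M)
  have hcov2 : ∀ v, aent 0 ν 0 v v ≤ 2 * ‖v‖ ^ 2 := fun v => by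
    have e : aent 0 ν 0 v v = ‖v‖ ^ 2 := by
      rw [← hiso v]; simp only [aent, cen, hb, fib_zero, sub_zero, sq]
    rw [e]; linarith [sq_nonneg ‖v‖]
  set V := fun τ θ => av τ ν (fun x => q x ^ 2) θ - av τ ν q θ ^ 2 with hV
  have hVe : ∀ τ θ, V τ θ = ∫ x, (q x - ∫ y, q y ∂(fib τ ν θ)) ^ 2 ∂(fib τ ν θ) := fun τ θ => by
    have := isProb_fib (T := τ) hS θ
    rw [var_eq (supp_fib (T := τ) hS θ) hqc]; rfl
  have hV0 : ∀ τ θ, 0 ≤ V τ θ := fun τ θ => by rw [hVe]; exact integral_nonneg fun x => sq_nonneg _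
  obtain ⟨B, hB0, hB'⟩ := exists_bound hR hqc
  have hB : ∀ x, ‖x‖ ≤ R → |q x| ≤ B := fun x hx => by simpa [norm_eq_abs] using hB' x hx
  have hB2 : ∀ x, ‖x‖ ≤ R → |q x ^ 2| ≤ B ^ 2 := fun x hx => by
    rw [abs_pow]; exact pow_le_pow_left₀ (abs_nonneg _) (hB x hx) 2
  obtain ⟨G, hG0, hG'⟩ := exists_bound hR hgc
  have hG : ∀ x, ‖x‖ ≤ R → |g x| ≤ G := fun x hx => by simpa [norm_eq_abs] using hG' x hx
  have hVc : ∀ τ, Continuous (V τ) := fun τ =>
    (continuous_av hS (hqc.pow 2)).sub ((continuous_av hS hqc).pow 2)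
  have hVb : ∀ τ θ, |V τ θ| ≤ B ^ 2 + B ^ 2 := fun τ θ =>
    (abs_sub _ _).trans (add_le_add (abs_av_le hS hB2 θ) (abs_av_sq_le hS hB τ θ))
  set m := ∫ x, q x ∂ν with hm
  set V0 := ∫ x, (q x - m) ^ 2 ∂ν with hV0def
  have hV0e : V0 = (∫ x, q x ^ 2 ∂ν) - m ^ 2 := var_eq hS hqc
  have hEV : ∀ τ, 0 < τ → elaw τ ν (V τ) = (∫ x, q x ^ 2 ∂ν) - elaw τ ν (fun θ => av τ ν q θ ^ 2) := fun τ hτ => by
    have e : V τ = fun θ => av τ ν (fun x => q x ^ 2) θ + -1 * av τ ν q θ ^ 2 := funext fun θ => by simp only [hV]; ring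
    rw [e, elaw_add hS (f := fun θ => av τ ν (fun x => q x ^ 2) θ) (g := fun θ => -1 * av τ ν q θ ^ 2)
      (continuous_av hS (hqc.pow 2)) (((continuous_av hS hqc).pow 2).const_mul _) (abs_av_le hS hB2)
      (Bg := B ^ 2) (fun θ => by rw [abs_mul, abs_neg, abs_one, one_mul]; exact abs_av_sq_le hS hB τ θ),
      elaw_smul hS (f := fun θ => av τ ν q θ ^ 2) ((continuous_av hS hqc).pow 2) (abs_av_sq_le hS hB τ) (-1),
      elaw_av hS hR hτ.le (g := fun x => q x ^ 2) (hqc.pow 2)]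
    ring
  have hEVle : ∀ τ, 0 < τ → elaw τ ν (V τ) ≤ V0 := fun τ hτ => by
    rw [hEV τ hτ, hV0e]
    have hpt : ∀ θ, 2 * m * av τ ν q θ + -m ^ 2 ≤ av τ ν q θ ^ 2 := fun θ => by
      linarith [sq_nonneg (av τ ν q θ - m), sub_sq (av τ ν q θ) m]
    have h1 := elaw_mono (t := τ) hS (h₁ := fun θ => 2 * m * av τ ν q θ + -m ^ 2)
      (((continuous_av hS hqc).const_mul _).add continuous_const) ((continuous_av hS hqc).pow 2)
      (B₁ := |2 * m| * B + |-m ^ 2|) (fun θ => (abs_add_le _ _).trans (add_le_add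
        (by rw [abs_mul]; exact mul_le_mul_of_nonneg_left (abs_av_le hS hB θ) (abs_nonneg _)) le_rfl))
      (h₂ := fun θ => av τ ν q θ ^ 2) (abs_av_sq_le hS hB τ) hpt
    rw [elaw_affine hS (continuous_av hS hqc) (abs_av_le hS hB), elaw_av hS hR hτ.le hqc, ← hm] at h1
    linarith [sq m]
  have hbad : ∀ τ, 0 < τ → τ ≤ T →
      elaw τ ν (fun θ => big C (Aop τ ν θ) * av τ ν g θ) ≤ 150 * ((n : ℝ) + 1) * F * exp (-(c * (1 / τ) / 2)) :=
    fun τ hτ hτT => bad_le hS hR hτ.le (exp_pos _) hF0 (by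
      refine (hT n ν hν0 R hR hS hν hcov2 τ hτ (hτT.trans hTc)).trans (le_of_eq ?_)
      rw [sq, ← exp_add]; congr 1; field_simp; ring) hgc hg0 hg1 hg2
  have hslc : ∀ τ θ, 0 < τ → V τ θ ≤ 1 / τ * av τ ν g θ := fun τ θ hτ => by
    have := isProb_fib (T := τ) hS θ
    rw [hVe]
    exact poincare_slc hτ (isLC_fib hS hν θ) (supp_fib hS θ) hR hqd
  have hop : ∀ τ θ v, aent τ ν θ v v ≤ ‖Aop τ ν θ‖ * ‖v‖ ^ 2 := fun τ θ v => by
    rw [← inner_Aop hS, sq, ← mul_assoc]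
    refine (real_inner_le_norm _ _).trans ?_
    rw [mul_comm]
    exact mul_le_mul_of_nonneg_right ((Aop τ ν θ).le_opNorm v) (norm_nonneg _)
  -- the fibre part at time `T`
  have hpt1 : ∀ θ, V T θ ≤ 4 * √((C + 1) / T) * av T ν g θ + (1 / T * (big C (Aop T ν θ) * av T ν g θ) + 0) := fun θ => by
    have hu := av_nonneg (ν := ν) (τ := T) hg0 θ
    have hbu := mul_nonneg (big_nonneg C (Aop T ν θ)) hu
    rcases le_or_gt ‖Aop T ν θ‖ (C + 1) with h | h
    · have := isProb_fib (T := T) hS θ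
      have h1 := hL n (fib T ν θ) inferInstance R hR (supp_fib hS θ) T (C + 1) hT0 (by linarith) (isLC_fib hS hν θ)
        (fun v => by
          rw [aent_fib hS, add_zero, add_zero]
          exact (hop T θ v).trans (mul_le_mul_of_nonneg_right h (sq_nonneg _))) q _ hqd
      rw [← hVe] at h1
      have h2 : 0 ≤ 1 / T * (big C (Aop T ν θ) * av T ν g θ) := by positivity
      simp only [av, hg] at h1 h2 ⊢
      linarith
    · rw [big_eq_one h.le, one_mul]
      have h2 : 0 ≤ 4 * √((C + 1) / T) * av T ν g θ := by positivity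
      linarith [hslc T θ hT0]
  have hbgb : ∀ τ θ, |big C (Aop τ ν θ) * av τ ν g θ| ≤ 1 * G := fun τ θ => by
    rw [abs_mul]; exact mul_le_mul (abs_big_le _ _) (abs_av_le hS hG θ) (abs_nonneg _) zero_le_one
  have hE1 := elaw_le_lin (t := T) hS (g := fun θ => big C (Aop T ν θ) * av T ν g θ) (hVc T) (continuous_av hS hgc)
    ((continuous_big hS C T).mul (continuous_av hS hgc)) (hVb T) (abs_av_le hS hG) (hbgb T)
    (4 * √((C + 1) / T)) (1 / T) 0 hpt1
  rw [elaw_av hS hR hT0.le hgc, hg1, add_zero] at hE1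
  -- the covariance part along `[0, T]`
  have hU : ∀ τ, 0 < τ → τ ≤ T →
      elaw τ ν (fun θ => ‖cov τ ν q θ‖ ^ 2) ≤ (C + 1) * V0 + 4800 / c ^ 2 * F := by
    intro τ hτ hτT
    have hpt : ∀ θ, ‖cov τ ν q θ‖ ^ 2
        ≤ (C + 1) * V τ θ + ((1 / τ) ^ 2 * (big C (Aop τ ν θ) * av τ ν g θ) + 0) := fun θ => by
      have hu := av_nonneg (ν := ν) (τ := τ) hg0 θ
      have hv := hV0 τ θ
      set w := cov τ ν q θ with hw
      rcases le_or_gt ‖Aop τ ν θ‖ (C + 1) with h | h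
      · have h2 : 0 ≤ (1 / τ) ^ 2 * (big C (Aop τ ν θ) * av τ ν g θ) := by
          have := big_nonneg C (Aop τ ν θ); positivity
        rcases eq_or_ne w 0 with h0 | h0
        · rw [h0, norm_zero]; simp only [ne_eq, OfNat.ofNat_ne_zero, not_false_eq_true, zero_pow]; positivity
        have h1 := inner_cov_sq_le (t := τ) hS hqc θ w
        rw [← hw, real_inner_self_eq_norm_sq, show ∫ x, (q x - av τ ν q θ) ^ 2 ∂(fib τ ν θ) = V τ θ from (hVe τ θ).symm,
          sq] at h1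
        have h3 := h1.trans (mul_le_mul_of_nonneg_right ((hop τ θ w).trans
          (mul_le_mul_of_nonneg_right h (sq_nonneg _))) hv)
        have hpos : 0 < ‖w‖ ^ 2 := by positivity
        have h4 : ‖w‖ ^ 2 ≤ (C + 1) * V τ θ := le_of_mul_le_mul_left (by linarith) hpos
        linarith
      · rw [big_eq_one h.le, one_mul]
        have h1 := norm_cov_sq_le_var hS hR hν hτ hqc θ
        rw [show ∫ x, (q x - av τ ν q θ) ^ 2 ∂(fib τ ν θ) = V τ θ from (hVe τ θ).symm] at h1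
        have h2 : ‖w‖ ^ 2 ≤ 1 / τ * V τ θ := by
          rw [div_mul_eq_mul_div, one_mul, le_div_iff₀ hτ, mul_comm]; exact h1
        have h3 := mul_le_mul_of_nonneg_left (hslc τ θ hτ) (by positivity : 0 ≤ 1 / τ)
        have h4 : 0 ≤ (C + 1) * V τ θ := by positivity
        rw [sq (1 / τ), mul_assoc]
        linarith
    have h := elaw_le_lin (t := τ) hS (g := fun θ => big C (Aop τ ν θ) * av τ ν g θ)
      (((continuous_cov hS hqc).norm).pow 2) (hVc τ) ((continuous_big hS C τ).mul (continuous_av hS hgc))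
      (abs_norm_cov_sq_le hS hR hB τ) (hVb τ) (hbgb τ) (C + 1) ((1 / τ) ^ 2) 0 hpt
    rw [add_zero] at h
    refine h.trans (add_le_add (mul_le_mul_of_nonneg_left (hEVle τ hτ) (by positivity)) ?_)
    refine (mul_le_mul_of_nonneg_left (hbad τ hτ hτT) (sq_nonneg _)).trans ?_
    have h1 := (exp_tail_le hc (by positivity) (one_div_le_one_div_of_le hτ hτT)).2
    calc (1 / τ) ^ 2 * (150 * ((n : ℝ) + 1) * F * exp (-(c * (1 / τ) / 2)))
        = 150 * ((n : ℝ) + 1) * F * ((1 / τ) ^ 2 * exp (-(c * (1 / τ) / 2))) := by ring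
      _ ≤ 150 * ((n : ℝ) + 1) * F * (32 / c ^ 2 * exp (-(c * (1 / T) / 4))) :=
          mul_le_mul_of_nonneg_left h1 (by positivity)
      _ = 4800 / c ^ 2 * F * (((n : ℝ) + 1) * exp (-(c * (1 / T) / 4))) := by ring
      _ ≤ _ := mul_le_of_le_one_right (by positivity) hexp
  have hgrow := elaw_av_sq_le hS hR hqc hT0 hU
  have hb1 : 1 / T * elaw T ν (fun θ => big C (Aop T ν θ) * av T ν g θ) ≤ 600 / c * F := by
    refine (mul_le_mul_of_nonneg_left (hbad T hT0 le_rfl) (by positivity)).trans ?_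
    have h1 := (exp_tail_le hc (by positivity) (le_refl (1 / T))).1
    calc 1 / T * (150 * ((n : ℝ) + 1) * F * exp (-(c * (1 / T) / 2)))
        = 150 * ((n : ℝ) + 1) * F * (1 / T * exp (-(c * (1 / T) / 2))) := by ring
      _ ≤ 150 * ((n : ℝ) + 1) * F * (4 / c * exp (-(c * (1 / T) / 4))) := mul_le_mul_of_nonneg_left h1 (by positivity)
      _ = 600 / c * F * (((n : ℝ) + 1) * exp (-(c * (1 / T) / 4))) := by ring
      _ ≤ _ := mul_le_of_le_one_right (by positivity) hexp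
  have hsq : √((C + 1) / T) = √((C + 1) / c') * L := by
    rw [hTdef, div_div_eq_mul_div, show (C + 1) * L ^ 2 / c' = (C + 1) / c' * L ^ 2 by ring,
      Real.sqrt_mul (by positivity), Real.sqrt_sq hL0.le]
  have hV0nn : 0 ≤ V0 := integral_nonneg fun x => sq_nonneg _
  have hmain : V0 ≤ 2 * (4 * √((C + 1) / c') * L + 600 / c + 4800 / c ^ 2) * F := by
    rw [hEV T hT0] at hE1
    rw [hsq] at hE1
    have h5 : T * ((C + 1) * V0) ≤ 1 / 2 * V0 := by
      rw [← mul_assoc]; exact mul_le_mul_of_nonneg_right hTC hV0nn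
    have h6 : T * (4800 / c ^ 2 * F) ≤ 4800 / c ^ 2 * F :=
      mul_le_of_le_one_left (by positivity) (by linarith)
    rw [mul_add] at hgrow
    linarith
  refine hmain.trans ?_
  have hF4 : F ≤ 4 * frob M := frob_add_adjoint_le M
  have h7 : 600 / c + 4800 / c ^ 2 ≤ (600 / c + 4800 / c ^ 2) / log 2 * L := by
    rw [div_mul_eq_mul_div, le_div_iff₀ hl2]
    exact mul_le_mul_of_nonneg_left hL2 (by positivity)
  calc 2 * (4 * √((C + 1) / c') * L + 600 / c + 4800 / c ^ 2) * F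
      ≤ 2 * ((4 * √((C + 1) / c') + (600 / c + 4800 / c ^ 2) / log 2) * L) * (4 * frob M) := by
        refine mul_le_mul (by linarith) hF4 hF0 (by positivity)
    _ = _ := by ring

end Vale.Agent.P245N.QVar
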