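import Vale.Agent.P245N.Defs
import Vale.Agent.P245.Poincare

/-!
Growth of the second moment of a fibre average along the localisation, by a mesh.
-/

open MeasureTheory Real Filter Set
open scoped Topology RealInnerProductSpace

namespace Vale.Agent.P245N.QVar

open Vale.Agent.P245

variable {n : ℕ} {μ : Measure (Euc n)} [IsProbabilityMeasure μ] {R : ℝ}

lemma elaw_add (hS : Supp μ R) {t : ℝ} {f g : Euc n → ℝ} (hf : Continuous f) (hg : Continuous g) {Bf Bg : ℝ}
    (hBf : ∀ z, |f z| ≤ Bf) (hBg : ∀ z, |g z| ≤ Bg) :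
    elaw t μ (fun z => f z + g z) = elaw t μ f + elaw t μ g := by
  have hp : Continuous fun p : Euc n × Euc n => pt (√t) p.1 p.2 := by unfold pt; fun_prop
  have e : ∀ x, ∫ G, (f (pt (√t) x G) + g (pt (√t) x G)) ∂(gam n)
      = (∫ G, f (pt (√t) x G) ∂(gam n)) + ∫ G, g (pt (√t) x G) ∂(gam n) := fun x =>
    integral_add (integrable_gam_bdd (H := fun G => f (pt (√t) x G)) (hf.comp (continuous_pt _ x)) fun _ => hBf _)
      (integrable_gam_bdd (H := fun G => g (pt (√t) x G)) (hg.comp (continuous_pt _ x)) fun _ => hBg _)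
  simp only [elaw, e]
  exact integral_add (hS.integrable (continuous_gint (H := fun x G => f (pt (√t) x G)) (hf.comp hp) fun _ _ => hBf _))
    (hS.integrable (continuous_gint (H := fun x G => g (pt (√t) x G)) (hg.comp hp) fun _ _ => hBg _))

lemma elaw_smul (hS : Supp μ R) {t : ℝ} {f : Euc n → ℝ} (hf : Continuous f) {Bf : ℝ}
    (hBf : ∀ z, |f z| ≤ Bf) (a : ℝ) : elaw t μ (fun z => a * f z) = a * elaw t μ f := by
  simpa using elaw_affine (t := t) hS hf hBf a 0

/-- Upper bound of `elaw` by a combination of two functions and a constant. -/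
lemma elaw_le_lin (hS : Supp μ R) {t : ℝ} {h f g : Euc n → ℝ} (hh : Continuous h) (hf : Continuous f)
    (hg : Continuous g) {Bh Bf Bg : ℝ} (hBh : ∀ z, |h z| ≤ Bh) (hBf : ∀ z, |f z| ≤ Bf) (hBg : ∀ z, |g z| ≤ Bg)
    (a b c : ℝ) (hle : ∀ z, h z ≤ a * f z + (b * g z + c)) :
    elaw t μ h ≤ a * elaw t μ f + b * elaw t μ g + c := by
  have b1 : ∀ z, |a * f z| ≤ |a| * Bf := fun z => by
    rw [abs_mul]; exact mul_le_mul_of_nonneg_left (hBf z) (abs_nonneg _)
  have b2 : ∀ z, |b * g z + c| ≤ |b| * Bg + |c| := fun z =>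
    (abs_add_le _ _).trans (add_le_add (by rw [abs_mul]; exact mul_le_mul_of_nonneg_left (hBg z) (abs_nonneg _)) le_rfl)
  have h1 := elaw_mono (t := t) hS (h₂ := fun z => a * f z + (b * g z + c)) hh ((hf.const_mul a).add ((hg.const_mul b).add continuous_const)) hBh
    (B₂ := |a| * Bf + (|b| * Bg + |c|)) (fun z => (abs_add_le _ _).trans (add_le_add (b1 z) (b2 z))) hle
  rw [elaw_add hS (f := fun z => a * f z) (g := fun z => b * g z + c) (hf.const_mul a)
    ((hg.const_mul b).add continuous_const) b1 b2, elaw_smul hS hf hBf a, elaw_affine hS hg hBg b c] at h1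
  linarith

lemma abs_av_sq_le (hS : Supp μ R) {q : Euc n → ℝ} {B : ℝ} (hB : ∀ x, ‖x‖ ≤ R → |q x| ≤ B) (t : ℝ) (θ : Euc n) :
    |av t μ q θ ^ 2| ≤ B ^ 2 := by
  rw [abs_pow]; exact pow_le_pow_left₀ (abs_nonneg _) (abs_av_le hS hB θ) 2

lemma abs_norm_cov_sq_le (hS : Supp μ R) (hR : 0 ≤ R) {q : Euc n → ℝ} {B : ℝ} (hB : ∀ x, ‖x‖ ≤ R → |q x| ≤ B)
    (t : ℝ) (θ : Euc n) : |‖cov t μ q θ‖ ^ 2| ≤ (2 * B * R) ^ 2 := by
  rw [abs_pow, abs_norm]; exact pow_le_pow_left₀ (norm_nonneg _) (norm_cov_le hS hR hB θ) 2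

/-- One step: Gaussian Poincaré in the increment, a Lipschitz bound in the point. -/
lemma step_var (hS : Supp μ R) (hR : 0 ≤ R) {σ : ℝ} (hσ : 0 ≤ σ) {q : Euc n → ℝ} (hq : Continuous q) {B : ℝ}
    (hB : ∀ x, ‖x‖ ≤ R → |q x| ≤ B) :
    ∫ x, ∫ G, av σ μ q (pt (√σ) x G) ^ 2 ∂(gam n) ∂μ
      ≤ (∫ x, q x ∂μ) ^ 2 + σ * (∫ x, ∫ G, ‖cov σ μ q (pt (√σ) x G)‖ ^ 2 ∂(gam n) ∂μ)
        + σ ^ 2 * (4 * B * R ^ 2) ^ 2 := by
  set s := √σ with hs
  have hs2 : s ^ 2 = σ := Real.sq_sqrt hσ
  have hB0 : 0 ≤ B := (abs_nonneg _).trans (hB 0 (by simpa using hR))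
  set m := qop s μ q with hm
  have hmc : Continuous m := continuous_qop hS hR hq
  have hp : Continuous fun p : Euc n × Euc n => pt s p.1 p.2 := by unfold pt; fun_prop
  have hcc : Continuous fun z => ‖cov σ μ q z‖ ^ 2 := ((continuous_cov hS hq).norm).pow 2
  have hac : Continuous fun z => av σ μ q z ^ 2 := (continuous_av hS hq).pow 2
  have h1 : ∀ x, ∫ G, av σ μ q (pt s x G) ^ 2 ∂(gam n)
      ≤ m x ^ 2 + σ * ∫ G, ‖cov σ μ q (pt s x G)‖ ^ 2 ∂(gam n) := fun x => by
    have hd : D1 (fun G => av σ μ q (pt s x G)) (fun G => s • cov σ μ q (pt s x G)) := by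
      refine ⟨fun G => ?_, ((continuous_cov hS hq).comp (continuous_pt s x)).const_smul s⟩
      have h1 : HasFDerivAt (pt s x) (s • ContinuousLinearMap.id ℝ (Euc n)) G :=
        ((hasFDerivAt_id G).const_smul s).const_add _
      convert! (hasFDerivAt_av (T := σ) hS hq (pt s x G)).comp G h1 using 1
      ext v; simp
    have h := poincare_gam hd (B := B) (G := |s| * (2 * B * R)) (fun G => abs_av_le hS hB _) fun G => by
      rw [norm_smul, norm_eq_abs]
      exact mul_le_mul_of_nonneg_left (norm_cov_le hS hR hB _) (abs_nonneg _)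
    have e : ∫ G, ‖s • cov σ μ q (pt s x G)‖ ^ 2 ∂(gam n) = σ * ∫ G, ‖cov σ μ q (pt s x G)‖ ^ 2 ∂(gam n) := by
      rw [← integral_const_mul]
      exact integral_congr_ae (Eventually.of_forall fun G => by
        simp only [norm_smul, norm_eq_abs, mul_pow, sq_abs, hs2])
    have e2 : m x = ∫ G, av σ μ q (pt s x G) ∂(gam n) := by simp only [hm, qop, hs2]
    rw [e, ← e2] at h
    linarith
  have iG : Continuous fun x => ∫ G, ‖cov σ μ q (pt s x G)‖ ^ 2 ∂(gam n) :=
    continuous_gint (H := fun x G => ‖cov σ μ q (pt s x G)‖ ^ 2) (hcc.comp hp) fun _ _ => abs_norm_cov_sq_le hS hR hB _ _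
  have iA : Continuous fun x => ∫ G, av σ μ q (pt s x G) ^ 2 ∂(gam n) :=
    continuous_gint (H := fun x G => av σ μ q (pt s x G) ^ 2) (hac.comp hp) fun _ _ => abs_av_sq_le hS hB _ _
  have h2 := integral_mono (hS.integrable iA) ((hS.integrable (hmc.pow 2)).add ((hS.integrable iG).const_mul σ)) h1
  simp only [Pi.add_apply, Pi.pow_apply] at h2
  rw [integral_add (f := fun x => m x ^ 2) (hS.integrable (hmc.pow 2)) ((hS.integrable iG).const_mul σ),
    integral_const_mul] at h2
  have hlip : ∀ x, |m x - m 0| ≤ σ * (2 * B * R) * ‖x‖ := fun x => by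
    have h := Convex.norm_image_sub_le_of_norm_hasFDerivWithin_le (𝕜 := ℝ) (f := m)
      (f' := fun y => innerSL ℝ (qgrad s μ q y)) (s := univ) (C := σ * (2 * B * R))
      (fun y _ => (hasFDerivAt_qop hS hR hq y).hasFDerivWithinAt) (fun y _ => by
        rw [innerSL_apply_norm, qgrad, norm_smul, norm_eq_abs, abs_of_nonneg (sq_nonneg _), hs2]
        refine mul_le_mul_of_nonneg_left ?_ hσ
        have h' := norm_integral_le_of_norm_le_const (μ := gam n) (f := fun G => cov σ μ q (pt s y G))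
          (Eventually.of_forall fun G => norm_cov_le hS hR hB _)
        simpa using h') convex_univ (mem_univ 0) (mem_univ x)
    simpa [norm_eq_abs] using h
  have h3 : (∫ x, m x ^ 2 ∂μ) - (∫ x, m x ∂μ) ^ 2 ≤ σ ^ 2 * (4 * B * R ^ 2) ^ 2 := by
    rw [← var_eq hS hmc]
    refine (var_le_center hS hmc (m 0)).trans ?_
    have hb : ∀ᵐ x ∂μ, (m x - m 0) ^ 2 ≤ σ ^ 2 * (4 * B * R ^ 2) ^ 2 := hS.mono fun x hx => by
      rw [← sq_abs (m x - m 0), ← mul_pow]
      refine pow_le_pow_left₀ (abs_nonneg _) ((hlip x).trans ?_) 2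
      calc σ * (2 * B * R) * ‖x‖ ≤ σ * (2 * B * R) * R := mul_le_mul_of_nonneg_left hx (by positivity)
        _ ≤ σ * (4 * B * R ^ 2) := by
          have : 0 ≤ σ * B * R ^ 2 := by positivity
          linarith
    refine (integral_mono_ae (hS.integrable ((hmc.sub continuous_const).pow 2)) (integrable_const _) hb).trans ?_
    simp
  have e3 : ∫ x, m x ∂μ = ∫ x, q x ∂μ := integral_qop hS hR hq
  rw [e3] at h3
  linarith

/-- Along `[0, T]` the second moment of the fibre average grows at most at the rate `E |cov|²`. -/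
lemma elaw_av_sq_le (hS : Supp μ R) (hR : 0 ≤ R) {q : Euc n → ℝ} (hq : Continuous q) {T : ℝ} (hT : 0 < T) {U : ℝ}
    (hU : ∀ τ, 0 < τ → τ ≤ T → elaw τ μ (fun θ => ‖cov τ μ q θ‖ ^ 2) ≤ U) :
    elaw T μ (fun θ => av T μ q θ ^ 2) ≤ (∫ x, q x ∂μ) ^ 2 + T * U := by
  obtain ⟨B, hB0, hB'⟩ := exists_bound hR hq
  have hB : ∀ x, ‖x‖ ≤ R → |q x| ≤ B := fun x hx => by simpa [norm_eq_abs] using hB' x hx
  set K := (4 * B * R ^ 2) ^ 2 with hK
  have key : ∀ N : ℕ, 0 < N → elaw T μ (fun θ => av T μ q θ ^ 2)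
      ≤ (∫ x, q x ∂μ) ^ 2 + T * U + T ^ 2 * K / N := by
    intro N hN
    have hN' : (0 : ℝ) < N := by exact_mod_cast hN
    set σ := T / N with hσdef
    have hσ : 0 < σ := by positivity
    have main : ∀ j : ℕ, j ≤ N → elaw (j * σ) μ (fun θ => av (j * σ) μ q θ ^ 2)
        ≤ (∫ x, q x ∂μ) ^ 2 + j * (σ * U + σ ^ 2 * K) := by
      intro j
      induction j with
      | zero =>
        intro _
        simp only [Nat.cast_zero, zero_mul, add_zero, elaw_zero]
        simp [av, fib_zero]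
      | succ j ih =>
        intro hj
        have h0 := ih (Nat.le_of_succ_le hj)
        set t := (j : ℝ) * σ with htdef
        have ht : 0 ≤ t := by positivity
        have e : ((j + 1 : ℕ) : ℝ) * σ = t + σ := by push_cast; ring
        rw [e]
        have hac : Continuous fun z => av (t + σ) μ q z ^ 2 := (continuous_av hS hq).pow 2
        have hcc : Continuous fun z => ‖cov (t + σ) μ q z‖ ^ 2 := ((continuous_cov hS hq).norm).pow 2
        have hg : ∀ {h : Euc n → ℝ}, Continuous h → ∀ {b : ℝ}, (∀ z, |h z| ≤ b) →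
            Continuous (fun θ => ∫ y, ∫ G, h (θ + pt (√σ) y G) ∂(gam n) ∂(fib t μ θ))
            ∧ ∀ θ, |∫ y, ∫ G, h (θ + pt (√σ) y G) ∂(gam n) ∂(fib t μ θ)| ≤ b := fun {h} hh {b} hb => by
          refine ⟨continuous_fib_integral (F := fun θ y => ∫ G, h (θ + pt (√σ) y G) ∂(gam n)) hS
            (continuous_gint (H := fun (p : Euc n × Euc n) G => h (p.1 + pt (√σ) p.2 G))
              (hh.comp (by unfold pt; fun_prop)) fun _ _ => hb _), fun θ => ?_⟩
          have := isProb_fib (T := t) hS θ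
          have h1 := norm_integral_le_of_norm_le_const (μ := fib t μ θ)
            (f := fun y => ∫ G, h (θ + pt (√σ) y G) ∂(gam n)) (C := b)
            (Eventually.of_forall fun y => abs_gint_le fun G => hb _)
          simpa using h1
        have hA := hg hac (abs_av_sq_le hS hB (t + σ))
        have hC := hg hcc (abs_norm_cov_sq_le hS hR hB (t + σ))
        have hpt : ∀ θ, ∫ y, ∫ G, av (t + σ) μ q (θ + pt (√σ) y G) ^ 2 ∂(gam n) ∂(fib t μ θ)
            ≤ 1 * av t μ q θ ^ 2 + (σ * (∫ y, ∫ G, ‖cov (t + σ) μ q (θ + pt (√σ) y G)‖ ^ 2 ∂(gam n) ∂(fib t μ θ))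
              + σ ^ 2 * K) := fun θ => by
          have := isProb_fib (T := t) hS θ
          have h := step_var (supp_fib (T := t) hS θ) hR hσ.le hq hB
          have e1 : ∀ z, av σ (fib t μ θ) q z = av (t + σ) μ q (θ + z) := fun z => by
            simp only [av, fib_fib hS]
          have e2 : ∀ z, cov σ (fib t μ θ) q z = cov (t + σ) μ q (θ + z) := fun z => by
            simp only [Vale.Agent.P245.cov, av, bary, fib_fib hS]
          simp only [e1, e2] at h
          rw [one_mul, ← add_assoc]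
          exact h
        have h1 := elaw_le_lin (t := t) (f := fun θ => av t μ q θ ^ 2) hS hA.1 ((continuous_av hS hq).pow 2) hC.1 hA.2 (abs_av_sq_le hS hB t) hC.2
          1 σ (σ ^ 2 * K) hpt
        rw [← elaw_comp hS ht hσ.le hac (abs_av_sq_le hS hB (t + σ)),
          ← elaw_comp hS ht hσ.le hcc (abs_norm_cov_sq_le hS hR hB (t + σ))] at h1
        have hτT : t + σ ≤ T := by
          have h2 : ((j + 1 : ℕ) : ℝ) ≤ N := by exact_mod_cast hj
          have h3 := mul_le_mul_of_nonneg_right h2 hσ.le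
          rw [e] at h3
          have e4 : (N : ℝ) * σ = T := by rw [hσdef]; field_simp
          linarith
        have h2 := mul_le_mul_of_nonneg_left (hU (t + σ) (by positivity) hτT) hσ.le
        push_cast
        linarith
    have h := main N le_rfl
    have e4 : (N : ℝ) * σ = T := by rw [hσdef]; field_simp
    have e5 : (N : ℝ) * (σ * U + σ ^ 2 * K) = T * U + T ^ 2 * K / N := by rw [hσdef]; field_simp
    rw [e4, e5] at h
    linarith
  refine le_of_forall_pos_le_add fun ε hε => ?_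
  obtain ⟨N, hN⟩ := exists_nat_gt (T ^ 2 * K / ε)
  have hK0 : 0 ≤ K := sq_nonneg _
  have hN0 : (0 : ℝ) < N := lt_of_le_of_lt (by positivity) hN
  refine (key N (by exact_mod_cast hN0)).trans (add_le_add le_rfl ?_)
  rw [div_le_iff₀ hN0]
  rw [div_lt_iff₀ hε] at hN
  linarith

end Vale.Agent.P245N.QVar
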